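import Vale.Agent.P232.Profile
import Vale.Agent.P232.Classify
import Vale.Agent.P232.Shapes

/-! # P232: profile and minimisers on the cubic three-torus -/

namespace Vale.Agent.Results.P232.CubicTorusMinimizers

open MeasureTheory Vale.Agent.P232
open scoped ENNReal

/-- For every volume the least perimeter on the cubic torus is `J V`, it is attained, and every
minimiser is, up to a null set, a translate of a ball, of an axis tube, of a coordinate slab, or of
the complement of one of these. -/
theorem result : ∀ V ∈ Set.Ioo (0 : ℝ) 1,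
    IsLeast {p : ℝ≥0∞ | ∃ E : Set (Fin 3 → ℝ), IsTorusSet E ∧ torusVol E = V ∧ perim E = p}
      (ENNReal.ofReal (J V)) ∧
    ∀ E : Set (Fin 3 → ℝ), IsTorusSet E → torusVol E = V → perim E = ENNReal.ofReal (J V) →
      ∃ (S : Finset (Fin 3)) (R : ℝ) (a : Fin 3 → ℝ), S.Nonempty ∧ 0 < R ∧ R < 1 / 2 ∧
        (E =ᵐ[volume] canon S R a ∨ E =ᵐ[volume] (canon S R a)ᶜ) :=
  fun V hV => ⟨Vale.Agent.P232.profile V hV, fun E hE hvol hper =>
    classification_of (jQ_le_area_of SlabHigh.twoHighLe) eqCases_holds shapes E V hV hE hvol hper⟩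

end Vale.Agent.Results.P232.CubicTorusMinimizers
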